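import Vale.Agent.P365.T1c.V3Swap548
import Vale.Agent.P365.V4.Free227

/-!
# P365-T2: the mass of the centres of the matched blocks
-/

set_option linter.all false

namespace P365T2.H685

open P365L P365O P365T1 P365L.TL P365T1.Conc MeasureTheory
open Vale.Agent.P365.J376 P365T2.SeqG P365T2.ConcG P365V4.Free
open scoped ENNReal

/-- labels prescribed on a finite set -/
theorem sum_match_le {ι Λ : Type*} [Fintype ι] [DecidableEq ι] [Fintype Λ] [DecidableEq Λ]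
    {p : Λ → ℝ} (hp : ∀ k, 0 ≤ p k) (hs : ∑ k, p k = 1) (S : Finset ι) (g : ι → Λ) {q : ℝ}
    (hq : ∀ z ∈ S, p (g z) ≤ q) :
    ∑ l : ι → Λ, (if ∀ z ∈ S, l z = g z then ∏ x, p (l x) else 0) ≤ q ^ S.card := by
  set F : ι → Λ → ℝ := fun z b => if z ∈ S ∧ b ≠ g z then 0 else p b with hF
  have h1 : ∀ l : ι → Λ, (if ∀ z ∈ S, l z = g z then ∏ x, p (l x) else 0) = ∏ z, F z (l z) := by
    intro l
    by_cases hl : ∀ z ∈ S, l z = g z
    · rw [if_pos hl]
      refine Finset.prod_congr rfl fun z _ => ?_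
      rw [hF]
      simp only
      rw [if_neg]
      rintro ⟨hz, hb⟩
      exact hb (hl z hz)
    · rw [if_neg hl]
      push Not at hl
      obtain ⟨z, hz, hb⟩ := hl
      refine (Finset.prod_eq_zero (Finset.mem_univ z) ?_).symm
      rw [hF]
      simp only
      rw [if_pos ⟨hz, hb⟩]
  have h2 := (Finset.prod_univ_sum (fun _ : ι => (Finset.univ : Finset Λ))
    (fun z b => F z b)).symm
  rw [Fintype.piFinset_univ] at h2
  have h4 : ∀ z, z ∉ S → ∑ b, F z b = 1 := by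
    intro z hz
    rw [← hs]
    refine Finset.sum_congr rfl fun b _ => ?_
    simp [hF, hz]
  have h5 : ∀ z, z ∈ S → ∑ b, F z b = p (g z) := by
    intro z hz
    rw [Finset.sum_eq_single (g z)]
    · simp [hF]
    · intro b _ hb
      simp [hF, hz, hb]
    · intro h
      exact absurd (Finset.mem_univ _) h
  calc ∑ l : ι → Λ, (if ∀ z ∈ S, l z = g z then ∏ x, p (l x) else 0)
      = ∑ l : ι → Λ, ∏ z, F z (l z) := Finset.sum_congr rfl fun l _ => h1 l
    _ = ∏ z, ∑ b, F z b := h2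
    _ = (∏ z ∈ S, ∑ b, F z b) * ∏ z ∈ Sᶜ, ∑ b, F z b := (Finset.prod_mul_prod_compl S _).symm
    _ = ∏ z ∈ S, ∑ b, F z b := by
        rw [Finset.prod_congr rfl fun z hz => h4 z (Finset.mem_compl.1 hz), Finset.prod_const_one,
          mul_one]
    _ ≤ ∏ _z ∈ S, q := Finset.prod_le_prod (fun z hz => by rw [h5 z hz]; exact hp _)
        fun z hz => by rw [h5 z hz]; exact hq z hz
    _ = q ^ S.card := Finset.prod_const q

open Classical in
/-- **the mass of the centres of family `j`**, at one site -/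
theorem cen_mass {D : V3} {ρ : Measure ℝ} (h : D.Ok ρ) {N : ℕ} [NeZero N] {j : ℕ}
    (hm : 0 < D.m j) (hmN : D.m j ∣ N) {q : ℝ} (hq : ∀ a, D.p (D.pat j a) ≤ q) (x : Tor N) :
    ∑ l : Tor N → D.Λ, (∏ x, D.p (l x)) * (if D.cen j l x then 1 else 0) ≤
      q ^ (D.m j) ^ 2 := by
  have h1 := sum_match_le h.p_nonneg h.p_sum (bset N (D.m j) (bi (D.m j) x))
    (fun z => D.pat j (lc (D.m j) z)) (q := q) fun z _ => hq _
  rw [card_bset hm (bIn_bi hmN x)] at h1
  refine le_trans (Finset.sum_le_sum fun l _ => ?_) h1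
  have h2 : 0 ≤ ∏ x, D.p (l x) := Finset.prod_nonneg fun x _ => h.p_nonneg _
  by_cases hc : D.cen j l x
  · rw [if_pos hc, mul_one, if_pos fun z hz => hc.1 z (mem_bset.1 hz)]
  · rw [if_neg hc, mul_zero]
    split_ifs
    · exact h2
    · exact le_rfl

open Classical in
/-- **the mass of the centres of family `j`**, all sites -/
theorem cen_mass_sum {D : V3} {ρ : Measure ℝ} (h : D.Ok ρ) {N : ℕ} [NeZero N] {j : ℕ}
    (hm : 0 < D.m j) (hmN : D.m j ∣ N) {q : ℝ} (hq : ∀ a, D.p (D.pat j a) ≤ q) :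
    ∑ l : Tor N → D.Λ, (∏ x, D.p (l x)) * ∑ x, (if D.cen j l x then (1 : ℝ) else 0) ≤
      (N : ℝ) ^ 2 * q ^ (D.m j) ^ 2 := by
  have e1 : ∑ l : Tor N → D.Λ, (∏ x, D.p (l x)) * ∑ x, (if D.cen j l x then (1 : ℝ) else 0) =
      ∑ x, ∑ l : Tor N → D.Λ, (∏ x, D.p (l x)) * (if D.cen j l x then (1 : ℝ) else 0) := by
    rw [Finset.sum_comm]
    refine Finset.sum_congr rfl fun l _ => ?_
    rw [Finset.mul_sum]
  rw [e1]
  refine (Finset.sum_le_sum fun x _ => cen_mass h hm hmN hq x).trans (le_of_eq ?_)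
  rw [Finset.sum_const, Finset.card_univ, card_Tor_nat, nsmul_eq_mul]
  push_cast
  ring

section concrete

variable {β : ℕ} [hβ : Fact (2 ≤ β)] {lam : ℝ} {yf : ℕ → ℤ × ℤ} {Vsf : ℕ → ℤ × ℤ → ℝ} {rs I : ℕ}

open Classical in
/-- **the mass of the centres for the concrete chain** (free `t`, `b`):
`exp (-(3 r) (8 r)²)` per site -/
theorem cen_mass_Df {t : ℕ → ℝ} {b : ℝ}
    (h : (Df t b (pS β yf rs I) (nuD β lam yf Vsf rs I)).Ok (nuL lam)) (hrs : 2 ≤ rs)
    {N : ℕ} [NeZero N] {j : ℕ} (hj : j ≤ I) (hmN : mS β rs j ∣ N) (x : Tor N) :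
    ∑ l : Tor N → (PP β yf rs I).Lb, (∏ x, pS β yf rs I (l x)) *
        (if (Df t b (pS β yf rs I) (nuD β lam yf Vsf rs I)).cen j l x then (1 : ℝ) else 0) ≤
      Real.exp (-(3 * (rr β rs j : ℝ) * (8 * (rr β rs j : ℝ)) ^ 2)) := by
  have h1 := cen_mass h (j := j) (N := N) (mS_pos (β := β) (by omega) j) hmN
    (q := Real.exp (-(3 * (rr β rs j : ℝ)))) (fun a => (pS_pat (β := β) hj a).le) x
  refine h1.trans (le_of_eq ?_)
  rw [← Real.exp_nat_mul]
  congr 1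
  show ((mS β rs j ^ 2 : ℕ) : ℝ) * _ = _
  rw [mS]
  push_cast
  ring

open Classical in
/-- all sites -/
theorem cen_mass_sum_Df {t : ℕ → ℝ} {b : ℝ}
    (h : (Df t b (pS β yf rs I) (nuD β lam yf Vsf rs I)).Ok (nuL lam)) (hrs : 2 ≤ rs)
    {N : ℕ} [NeZero N] {j : ℕ} (hj : j ≤ I) (hmN : mS β rs j ∣ N) :
    ∑ l : Tor N → (PP β yf rs I).Lb, (∏ x, pS β yf rs I (l x)) * ∑ x,
        (if (Df t b (pS β yf rs I) (nuD β lam yf Vsf rs I)).cen j l x then (1 : ℝ) else 0) ≤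
      (N : ℝ) ^ 2 * Real.exp (-(3 * (rr β rs j : ℝ) * (8 * (rr β rs j : ℝ)) ^ 2)) := by
  have h1 := cen_mass_sum h (j := j) (N := N) (mS_pos (β := β) (by omega) j) hmN
    (q := Real.exp (-(3 * (rr β rs j : ℝ)))) (fun a => (pS_pat (β := β) hj a).le)
  refine h1.trans (le_of_eq ?_)
  rw [← Real.exp_nat_mul]
  congr 2
  show ((mS β rs j ^ 2 : ℕ) : ℝ) * _ = _
  rw [mS]
  push_cast
  ring

end concrete

end P365T2.H685
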