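import Vale.Agent.P365.T2.H213.Spec
import Vale.Agent.P365.V4.KFin685

/-!
# P365-T2: the K side in the form of 213's Spec
-/

set_option linter.all false

namespace P365T2.H685

open P365L P365O P365T1 P365L.TL P365T1.Conc Matrix Complex MeasureTheory Filter Topology Set
open Vale.Agent.P365.J376 P365T2.SeqG P365T2.ConcG P365V4.Free P365T2.H213 P365V4.K685
open scoped ComplexConjugate ENNReal

instance : Fact (2 ≤ 8) := ⟨by norm_num⟩

theorem card_Tor (N : ℕ) [NeZero N] : ((Finset.univ : Finset (Tor N)).card : ℝ) = (N : ℝ) ^ 2 := by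
  rw [Finset.card_univ, card_Tor_nat]
  push_cast
  ring

/-- **213's `KTop`**: for every energy `|E| < 4 + lam` there are cells with the hubs of all
families -/
theorem exists_kTop {lam E : ℝ} (hlam : 0 < lam) (hE : |E| < 4 + lam) :
    ∃ (yf : ℕ → ℤ × ℤ) (Vsf : ℕ → ℤ × ℤ → ℝ), KTop lam E yf Vsf := by
  obtain ⟨lam', yf, Vsf, R1, h1, h2, hR1, h3, h4, hmain⟩ := ktop_fin 8 hlam hE
  refine ⟨yf, Vsf, fun K => ?_⟩
  obtain ⟨R, hR, hmain⟩ := hmain 9 K
  refine ⟨R, by omega, fun r hr => mem_Xr_of_abs (h3 r (by omega)).1 (h3 r (by omega)).2,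
    fun rs hrs I => ?_⟩
  obtain ⟨ha, hmain⟩ := hmain rs hrs I
  refine ⟨ha, ?_⟩
  intro N _ b fl b' hf
  have hw : WOk 8 rs I 9 (Finset.univ : Finset (Tor N)) b fl :=
    ⟨hf.b_pos, hf.b_ge, hf.fl_ge, fun k x => (hf.fl_le k x).trans hf.b'_le, hf.dvd,
      fun j _ => BlkU.univ _⟩
  obtain ⟨hW, hst⟩ := hmain N Finset.univ b fl hw
  refine ⟨Wf_ok hW.toOk hf.fl_ge hf.fl_le (fun j _ => BlkU.univ _), ?_⟩
  intro i hi s hs hs1
  have h5 := hst i hi
  refine ⟨h5.hc s s hs le_rfl hs1, ?_⟩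
  intro κ _ F Λf hΛ hF
  have h6 := h5.hb s s ((tF_pos hf.b_pos (i + 1)).trans_le hs) le_rfl hs1 κ F Λf hΛ hF
  rw [card_Tor] at h6
  exact h6

end P365T2.H685
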